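import Mathlib

set_option autoImplicit false

open MeasureTheory Set Filter Topology

namespace Crest.Agent.H0280

/-- The step function `1[y ≤ a]`. -/
noncomputable def step (a y : ℝ) : ℝ := if y ≤ a then 1 else 0

lemma step_sub_eq {a b : ℝ} (h : a ≤ b) :
    (fun y => step b y - step a y) = Set.indicator (Ioc a b) (fun _ => (1 : ℝ)) := by
  funext y
  simp only [step, Set.indicator, mem_Ioc]
  by_cases h1 : y ≤ a
  · have h2 : y ≤ b := h1.trans h
    have h3 : ¬ a < y := not_lt.mpr h1
    simp [h1, h2, h3]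
  · have h3 : a < y := not_le.mp h1
    by_cases h2 : y ≤ b <;> simp [h1, h2, h3]

lemma integrable_step_sub (a b : ℝ) : Integrable (fun y => step a y - step b y) := by
  rcases le_total a b with h | h
  · have : (fun y => step a y - step b y) = fun y => -(step b y - step a y) := by
      funext y; ring
    rw [this]
    apply Integrable.neg
    rw [step_sub_eq h]
    exact (integrable_indicator_iff measurableSet_Ioc).2 (by simp)
  · rw [step_sub_eq h]
    exact (integrable_indicator_iff measurableSet_Ioc).2 (by simp)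

lemma integral_step_sub (a b : ℝ) : ∫ y, (step a y - step b y) = a - b := by
  rcases le_total a b with h | h
  · have : (fun y => step a y - step b y) = fun y => -(step b y - step a y) := by
      funext y; ring
    rw [this, integral_neg, step_sub_eq h, integral_indicator measurableSet_Ioc]
    simp [Real.volume_real_Ioc_of_le h]
  · rw [step_sub_eq h, integral_indicator measurableSet_Ioc]
    simp [Real.volume_real_Ioc_of_le h]

lemma integral_norm_step_sub (a b : ℝ) : ∫ y, ‖step a y - step b y‖ = |a - b| := by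
  rcases le_total a b with h | h
  · have : (fun y => ‖step a y - step b y‖) = fun y => (step b y - step a y) := by
      funext y
      simp only [step]
      by_cases h1 : y ≤ a
      · have h2 : y ≤ b := h1.trans h
        simp [h1, h2]
      · by_cases h2 : y ≤ b <;> simp [h1, h2]
    rw [this, integral_step_sub, abs_of_nonpos (by linarith)]; ring
  · have : (fun y => ‖step a y - step b y‖) = fun y => (step a y - step b y) := by
      funext y
      simp only [step]
      by_cases h1 : y ≤ b
      · have h2 : y ≤ a := h1.trans h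
        simp [h1, h2]
      · by_cases h2 : y ≤ a <;> simp [h1, h2]
    rw [this, integral_step_sub, abs_of_nonneg (by linarith)]

lemma hasDerivAt_prim {β : ℝ} (hβ : 0 < β) (y : ℝ) :
    HasDerivAt (fun y => -((y / β + 1 / β ^ 2) * Real.exp (-β * y))) (y * Real.exp (-β * y)) y := by
  have h1 : HasDerivAt (fun y : ℝ => y / β + 1 / β ^ 2) (1 / β) y := by
    simpa using ((hasDerivAt_id y).div_const β).add_const (1 / β ^ 2)
  have h2 : HasDerivAt (fun y : ℝ => Real.exp (-β * y)) (Real.exp (-β * y) * (-β)) y := by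
    have : HasDerivAt (fun y : ℝ => -β * y) (-β) y := by
      simpa using (hasDerivAt_id y).const_mul (-β)
    exact this.exp
  have h3 := (h1.mul h2).neg
  have h4 : -(1 / β * Real.exp (-β * y) + (y / β + 1 / β ^ 2) * (Real.exp (-β * y) * (-β))) =
      y * Real.exp (-β * y) := by
    field_simp
    ring
  rw [← h4]
  exact h3

lemma tendsto_prim {β : ℝ} (hβ : 0 < β) :
    Tendsto (fun y => -((y / β + 1 / β ^ 2) * Real.exp (-β * y))) atTop (𝓝 0) := by
  have h0 : Tendsto (fun y : ℝ => β * y) atTop atTop := tendsto_id.const_mul_atTop hβ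
  have h1 := (Real.tendsto_pow_mul_exp_neg_atTop_nhds_zero 1).comp h0
  have h2 := (Real.tendsto_pow_mul_exp_neg_atTop_nhds_zero 0).comp h0
  have h3 := ((h1.add h2).const_mul (1 / β ^ 2)).neg
  simp only [add_zero, mul_zero, neg_zero] at h3
  refine h3.congr (fun y => ?_)
  simp only [Function.comp, pow_one, pow_zero, neg_mul]
  field_simp

lemma integrableOn_mul_exp {β : ℝ} (hβ : 0 < β) {t : ℝ} (ht : 0 ≤ t) :
    IntegrableOn (fun y => y * Real.exp (-β * y)) (Ioi t) := by
  refine integrableOn_Ioi_deriv_of_nonneg' (fun y _ => hasDerivAt_prim hβ y) ?_ (tendsto_prim hβ)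
  intro y hy
  have : 0 < y := lt_of_le_of_lt ht hy
  positivity

lemma integral_mul_exp {β : ℝ} (hβ : 0 < β) {t : ℝ} (ht : 0 ≤ t) :
    ∫ y in Ioi t, y * Real.exp (-β * y) = (t / β + 1 / β ^ 2) * Real.exp (-β * t) := by
  rw [integral_Ioi_of_hasDerivAt_of_tendsto' (fun y _ => hasDerivAt_prim hβ y)
    (integrableOn_mul_exp hβ ht) (tendsto_prim hβ)]
  ring

lemma integral_mul_exp_Ioc {β : ℝ} (hβ : 0 < β) {a b : ℝ} (hab : a ≤ b) :
    ∫ y in Ioc a b, y * Real.exp (-β * y) =
      (a / β + 1 / β ^ 2) * Real.exp (-β * a) - (b / β + 1 / β ^ 2) * Real.exp (-β * b) := by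
  rw [← intervalIntegral.integral_of_le hab,
    intervalIntegral.integral_eq_sub_of_hasDerivAt (fun y _ => hasDerivAt_prim hβ y)
      (by apply Continuous.intervalIntegrable; fun_prop)]
  ring

/-- The constant `(4/9) e^{-1/3}`. -/
noncomputable def cstar : ℝ := 4 / 9 * Real.exp (-1 / 3)

lemma cstar_le : cstar ≤ 8 / 25 := by
  have h : (25 / 18 : ℝ) ≤ Real.exp (1 / 3) := by
    have := Real.quadratic_le_exp_of_nonneg (x := 1 / 3) (by norm_num)
    norm_num at this ⊢
    linarith
  have h2 : Real.exp (-1 / 3) * Real.exp (1 / 3) = 1 := by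
    rw [← Real.exp_add]; norm_num
  have h3 : 0 < Real.exp (-1 / 3) := Real.exp_pos _
  unfold cstar
  nlinarith

lemma cstar_le_total {u : ℝ} (hu : 0 ≤ u) :
    cstar ≤ Real.exp (-1 + 4 / 3 * u) / (1 + u) ^ 2 := by
  have h1 : (2 + 2 * u) / 3 ≤ Real.exp ((2 * u - 1) / 3) := by
    have := Real.add_one_le_exp ((2 * u - 1) / 3)
    linarith
  have h2 : Real.exp (-1 + 4 / 3 * u) =
      Real.exp (-1 / 3) * (Real.exp ((2 * u - 1) / 3)) ^ 2 := by
    rw [sq, ← Real.exp_add, ← Real.exp_add]; congr 1; ring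
  have h3 : 0 < Real.exp (-1 / 3) := Real.exp_pos _
  have h4 : ((2 + 2 * u) / 3) ^ 2 ≤ (Real.exp ((2 * u - 1) / 3)) ^ 2 :=
    pow_le_pow_left₀ (by positivity) h1 2
  rw [le_div_iff₀ (by positivity), h2]
  unfold cstar
  nlinarith

/-- The comparison survival function. -/
noncomputable def Gc (u D y : ℝ) : ℝ := min 1 (Real.exp (D - u * (y - 4 / 3)))

lemma Gc_eq {u : ℝ} (hu : 0 < u) (D y : ℝ) :
    Gc u D y = step (4 / 3 + D / u) y +
      Set.indicator (Ioi (4 / 3 + D / u)) (fun y => Real.exp (D - u * (y - 4 / 3))) y := by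
  simp only [Gc, step, Set.indicator, mem_Ioi]
  have key : D - u * (y - 4 / 3) = u * (4 / 3 + D / u - y) := by field_simp; ring
  by_cases h : y ≤ 4 / 3 + D / u
  · have h' : ¬ (4 / 3 + D / u < y) := not_lt.mpr h
    have : 1 ≤ Real.exp (D - u * (y - 4 / 3)) := by
      apply Real.one_le_exp; rw [key]; apply mul_nonneg hu.le; linarith
    simp [h, h', this]
  · have h' : (4 / 3 + D / u < y) := not_le.mp h
    have : Real.exp (D - u * (y - 4 / 3)) ≤ 1 := by
      apply Real.exp_le_one_iff.mpr; rw [key]; apply mul_nonpos_of_nonneg_of_nonpos hu.le; linarith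
    simp [h, h', this]

lemma integrableOn_exp_aff {u : ℝ} (hu : 0 < u) (D t : ℝ) :
    IntegrableOn (fun y => Real.exp (D - u * (y - 4 / 3))) (Ioi t) := by
  have h := (integrableOn_exp_mul_Ioi (a := -u) (by linarith) t).const_mul
    (Real.exp (D + u * (4 / 3)))
  refine IntegrableOn.congr_fun h (fun y _ => ?_) measurableSet_Ioi
  rw [← Real.exp_add]; congr 1; ring

lemma integral_exp_aff {u : ℝ} (hu : 0 < u) (D t : ℝ) :
    ∫ y in Ioi t, Real.exp (D - u * (y - 4 / 3)) = Real.exp (D - u * (t - 4 / 3)) / u := by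
  have h : ∀ y, Real.exp (D - u * (y - 4 / 3)) = Real.exp (D + u * (4 / 3)) * Real.exp (-u * y) := by
    intro y; rw [← Real.exp_add]; congr 1; ring
  simp_rw [h]
  rw [integral_const_mul, integral_exp_mul_Ioi (by linarith)]
  field_simp

lemma integrable_Gc {u : ℝ} (hu : 0 < u) (D : ℝ) :
    Integrable (fun y => Gc u D y - step (4 / 3) y) := by
  have h1 := integrable_step_sub (4 / 3 + D / u) (4 / 3)
  have h2 := (integrable_indicator_iff (measurableSet_Ioi (a := 4 / 3 + D / u))).2
    (integrableOn_exp_aff hu D (4 / 3 + D / u))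
  refine (h1.add h2).congr (Eventually.of_forall fun y => ?_)
  simp only [Pi.add_apply, Gc_eq hu]; ring

lemma integral_Gc {u : ℝ} (hu : 0 < u) (D : ℝ) :
    ∫ y, (Gc u D y - step (4 / 3) y) = (1 + D) / u := by
  have h1 := integrable_step_sub (4 / 3 + D / u) (4 / 3)
  have h2 := (integrable_indicator_iff (measurableSet_Ioi (a := 4 / 3 + D / u))).2
    (integrableOn_exp_aff hu D (4 / 3 + D / u))
  have : (fun y => Gc u D y - step (4 / 3) y) = fun y => (step (4 / 3 + D / u) y - step (4 / 3) y) +
      Set.indicator (Ioi (4 / 3 + D / u)) (fun y => Real.exp (D - u * (y - 4 / 3))) y := by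
    funext y; simp only [Gc_eq hu]; ring
  rw [this, integral_add h1 h2, integral_step_sub, integral_indicator measurableSet_Ioi,
    integral_exp_aff hu]
  have : D - u * (4 / 3 + D / u - 4 / 3) = 0 := by field_simp; ring
  rw [this, Real.exp_zero]; field_simp; ring

lemma poly_ineq {t : ℝ} (h0 : 0 ≤ t) (h1 : t ≤ 4 / 3) :
    t * (7 / 3 - t) + (11 / 3 - 2 * t) ≤ 17 / 25 * (7 / 3 - t) ^ 2 * (1 + t + t ^ 2 / 2 + t ^ 3 / 6) := by
  have h2 : 0 ≤ 4 / 3 - t := by linarith
  nlinarith [mul_nonneg h0 h2, mul_nonneg (mul_nonneg h0 h0) h2, mul_nonneg (mul_nonneg h0 h2) h2,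
    mul_nonneg (mul_nonneg (mul_nonneg h0 h0) h0) h2, mul_nonneg (mul_nonneg (mul_nonneg h0 h0) h2) h2,
    mul_nonneg (mul_nonneg (mul_nonneg h0 h2) h2) h2, pow_nonneg h0 5, pow_nonneg h0 4,
    pow_nonneg h0 3, pow_nonneg h2 3, pow_nonneg h2 4, pow_nonneg h2 5,
    mul_nonneg (pow_nonneg h0 3) (pow_nonneg h2 2), mul_nonneg (pow_nonneg h0 2) (pow_nonneg h2 3),
    mul_nonneg (pow_nonneg h0 4) h2, mul_nonneg h0 (pow_nonneg h2 4)]

lemma continuous_Gc (u D : ℝ) : Continuous (Gc u D) := by
  unfold Gc; fun_prop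

lemma Gc_nonneg (u D y : ℝ) : 0 ≤ Gc u D y := le_min zero_le_one (Real.exp_pos _).le

lemma Gc_le_one (u D y : ℝ) : Gc u D y ≤ 1 := min_le_left _ _

lemma integrableOn_k_mul {G : ℝ → ℝ} (hG : Continuous G) (h0 : ∀ y, 0 ≤ G y) (h1 : ∀ y, G y ≤ 1) :
    IntegrableOn (fun y => y * Real.exp (-y) * G y) (Ioi 0) := by
  have h := integrableOn_mul_exp (β := 1) one_pos (le_refl (0 : ℝ))
  refine Integrable.mono' h (by fun_prop) ?_
  refine (ae_restrict_iff' measurableSet_Ioi).2 (Eventually.of_forall fun y hy => ?_)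
  have hy' : 0 < y := hy
  have h2 : 0 ≤ y * Real.exp (-y) := by positivity
  rw [Real.norm_eq_abs, abs_of_nonneg (mul_nonneg h2 (h0 y))]
  simp only [neg_mul, one_mul]
  nlinarith [h1 y]

lemma cstar_le_F {u : ℝ} (hu : 0 < u) :
    cstar ≤ ∫ y in Ioi 0, y * Real.exp (-y) * Gc u (-1) y := by
  have hβ : 0 < 1 + u := by linarith
  have hexp : ∀ y, y * Real.exp (-y) * Real.exp (-1 - u * (y - 4 / 3)) =
      Real.exp (-1 + 4 / 3 * u) * (y * Real.exp (-(1 + u) * y)) := by
    intro y
    have : Real.exp (-y) * Real.exp (-1 - u * (y - 4 / 3)) =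
        Real.exp (-1 + 4 / 3 * u) * Real.exp (-(1 + u) * y) := by
      rw [← Real.exp_add, ← Real.exp_add]; congr 1; ring
    rw [mul_assoc, this]; ring
  rcases le_or_gt u (3 / 4) with h | h
  · have : ∫ y in Ioi 0, y * Real.exp (-y) * Gc u (-1) y =
        ∫ y in Ioi 0, Real.exp (-1 + 4 / 3 * u) * (y * Real.exp (-(1 + u) * y)) := by
      refine setIntegral_congr_fun measurableSet_Ioi (fun y hy => ?_)
      have hy' : 0 < y := hy
      have : Gc u (-1) y = Real.exp (-1 - u * (y - 4 / 3)) := by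
        unfold Gc
        apply min_eq_right
        apply Real.exp_le_one_iff.mpr
        nlinarith [mul_pos hu hy']
      simp only [this, hexp]
    rw [this, integral_const_mul, integral_mul_exp hβ le_rfl]
    have := cstar_le_total hu.le
    simp only [zero_div, zero_add, mul_zero, Real.exp_zero, mul_one]
    rw [mul_one_div]; exact this
  · set a := 1 / u with ha
    have hapos : 0 < a := by positivity
    have hua : u * a = 1 := by rw [ha]; field_simp
    set t := 4 / 3 - a with ht
    have ht0 : 0 ≤ t := by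
      have : a ≤ 4 / 3 := by rw [ha, div_le_iff₀ hu]; linarith
      linarith
    have ht1 : t ≤ 4 / 3 := by linarith
    have hint := integrableOn_k_mul (continuous_Gc u (-1)) (Gc_nonneg u (-1)) (Gc_le_one u (-1))
    have hsplit : ∫ y in Ioi 0, y * Real.exp (-y) * Gc u (-1) y =
        (∫ y in Ioc 0 t, y * Real.exp (-y) * Gc u (-1) y) +
          ∫ y in Ioi t, y * Real.exp (-y) * Gc u (-1) y := by
      rw [← setIntegral_union (Set.Ioc_disjoint_Ioi le_rfl) measurableSet_Ioi
        (hint.mono_set Ioc_subset_Ioi_self) (hint.mono_set (Ioi_subset_Ioi ht0)),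
        Ioc_union_Ioi_eq_Ioi ht0]
    have key : ∀ y, -1 - u * (y - 4 / 3) = u * (t - y) := by
      intro y; rw [ht]; linear_combination hua
    have e1 : ∫ y in Ioc 0 t, y * Real.exp (-y) * Gc u (-1) y =
        ∫ y in Ioc 0 t, y * Real.exp (-1 * y) := by
      refine setIntegral_congr_fun measurableSet_Ioc (fun y hy => ?_)
      have : Gc u (-1) y = 1 := by
        unfold Gc
        apply min_eq_left
        apply Real.one_le_exp
        rw [key]; exact mul_nonneg hu.le (by linarith [hy.2])
      simp [this]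
    have e2 : ∫ y in Ioi t, y * Real.exp (-y) * Gc u (-1) y =
        ∫ y in Ioi t, Real.exp (-1 + 4 / 3 * u) * (y * Real.exp (-(1 + u) * y)) := by
      refine setIntegral_congr_fun measurableSet_Ioi (fun y hy => ?_)
      have hy' : t < y := hy
      have : Gc u (-1) y = Real.exp (-1 - u * (y - 4 / 3)) := by
        unfold Gc
        apply min_eq_right
        apply Real.exp_le_one_iff.mpr
        rw [key]; exact mul_nonpos_of_nonneg_of_nonpos hu.le (by linarith)
      simp only [this, hexp]
    rw [hsplit, e1, e2, integral_const_mul, integral_mul_exp hβ ht0,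
      integral_mul_exp_Ioc one_pos ht0]
    have e3 : Real.exp (-1 + 4 / 3 * u) * ((t / (1 + u) + 1 / (1 + u) ^ 2) *
        Real.exp (-(1 + u) * t)) = (t / (1 + u) + 1 / (1 + u) ^ 2) * Real.exp (-t) := by
      have : Real.exp (-1 + 4 / 3 * u) * Real.exp (-(1 + u) * t) = Real.exp (-t) := by
        rw [← Real.exp_add]; congr 1; rw [ht]; linear_combination hua
      rw [← this]; ring
    have e4 : 1 / (1 + u) = a / (a + 1) := by
      rw [ha]; field_simp
    have e5 : t / (1 + u) + 1 / (1 + u) ^ 2 = t * (a / (a + 1)) + (a / (a + 1)) ^ 2 := by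
      rw [← e4]; field_simp
    rw [e3, e5]
    simp only [one_pow, div_one, zero_add, mul_zero, Real.exp_zero, mul_one, neg_mul,
      one_mul]
    have hE : 1 + t + t ^ 2 / 2 + t ^ 3 / 6 ≤ Real.exp t := by
      have := Real.sum_le_exp_of_nonneg ht0 4
      simp [Finset.sum_range_succ, Nat.factorial] at this
      linarith
    have hEE : Real.exp (-t) * Real.exp t = 1 := by rw [← Real.exp_add]; simp
    have hEpos : 0 < Real.exp (-t) := Real.exp_pos _
    have hp := poly_ineq ht0 ht1
    have ha1 : a + 1 = 7 / 3 - t := by rw [ht]; ring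
    have ha2 : 0 < a + 1 := by linarith
    have hA : (t + 1) - (t * (a / (a + 1)) + (a / (a + 1)) ^ 2) =
        (t * (7 / 3 - t) + (11 / 3 - 2 * t)) / (7 / 3 - t) ^ 2 := by
      rw [← ha1]
      have : 11 / 3 - 2 * t = 2 * a + 1 := by rw [ht]; ring
      rw [this]
      field_simp
      ring
    have hB : (t * (7 / 3 - t) + (11 / 3 - 2 * t)) / (7 / 3 - t) ^ 2 ≤ 17 / 25 * Real.exp t := by
      rw [div_le_iff₀ (by rw [← ha1]; positivity)]
      have : 0 ≤ (7 / 3 - t) ^ 2 := sq_nonneg _
      nlinarith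
    have hC := cstar_le
    have : ((t + 1) - (t * (a / (a + 1)) + (a / (a + 1)) ^ 2)) * Real.exp (-t) ≤ 17 / 25 := by
      rw [hA]
      calc _ ≤ 17 / 25 * Real.exp t * Real.exp (-t) := by gcongr
        _ = 17 / 25 := by rw [mul_assoc, mul_comm (Real.exp t), hEE, mul_one]
    linarith

end Crest.Agent.H0280
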