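import Crest.Agent.H0280.Calc

set_option autoImplicit false

open MeasureTheory Set Filter Topology

namespace Crest.Agent.H0280

lemma chord_ge {S : Set ℝ} {ψ : ℝ → ℝ} (h : ConcaveOn ℝ S ψ) {y1 y2 v : ℝ} (h1 : y1 ∈ S)
    (h2 : y2 ∈ S) (e1 : ψ y1 = v) (e2 : ψ y2 = v) {y : ℝ} (hy1 : y1 ≤ y) (hy2 : y ≤ y2) :
    v ≤ ψ y := by
  rcases eq_or_lt_of_le hy1 with rfl | hy1
  · exact e1.ge
  rcases eq_or_lt_of_le hy2 with rfl | hy2
  · exact e2.ge
  have := h.slope_anti_adjacent h1 h2 hy1 hy2
  rw [e1, e2] at this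
  by_contra hc
  push Not at hc
  have a1 : 0 < (v - ψ y) / (y2 - y) := div_pos (by linarith) (by linarith)
  have a2 : (ψ y - v) / (y - y1) < 0 := div_neg_of_neg_of_pos (by linarith) (by linarith)
  linarith

lemma chord_le {S : Set ℝ} {ψ : ℝ → ℝ} (h : ConcaveOn ℝ S ψ) {y1 y2 v : ℝ} (h1 : y1 ∈ S)
    (h2 : y2 ∈ S) (h12 : y1 < y2) (e1 : ψ y1 = v) (e2 : ψ y2 = v) {y : ℝ} (hy : y ∈ S)
    (hy' : y ≤ y1 ∨ y2 ≤ y) : ψ y ≤ v := by
  rcases hy' with hy1 | hy2
  · rcases eq_or_lt_of_le hy1 with rfl | hy1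
    · exact e1.le
    have := h.slope_anti_adjacent hy h2 hy1 h12
    rw [e1, e2, sub_self, zero_div, le_div_iff₀ (by linarith)] at this
    linarith
  · rcases eq_or_lt_of_le hy2 with rfl | hy2
    · exact e2.le
    have := h.slope_anti_adjacent h1 hy h12 hy2
    rw [e1, e2, sub_self, zero_div, div_le_iff₀ (by linarith)] at this
    linarith

lemma concave_logk : ConcaveOn ℝ (Ioi 0) (fun y : ℝ => Real.log y - y) :=
  strictConcaveOn_log_Ioi.concaveOn.sub (convexOn_id (convex_Ioi 0))

lemma k_eq_exp {y : ℝ} (hy : 0 < y) : y * Real.exp (-y) = Real.exp (Real.log y - y) := by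
  rw [Real.exp_sub, Real.exp_log hy, Real.exp_neg]; field_simp

/-- left node -/
noncomputable def n1 (d : ℝ) : ℝ := d / (Real.exp d - 1)

lemma exp_sub_one_pos {d : ℝ} (hd : 0 < d) : 0 < Real.exp d - 1 := by
  have := Real.add_one_lt_exp hd.ne'
  linarith

lemma n1_pos {d : ℝ} (hd : 0 < d) : 0 < n1 d := div_pos hd (exp_sub_one_pos hd)

lemma n1_lt_one {d : ℝ} (hd : 0 < d) : n1 d < 1 := by
  unfold n1
  rw [div_lt_one (exp_sub_one_pos hd)]
  have := Real.add_one_lt_exp hd.ne'
  linarith

lemma n1_le {d : ℝ} (hd : 0 < d) : n1 d ≤ 2 / d := by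
  unfold n1
  rw [div_le_div_iff₀ (exp_sub_one_pos hd) hd]
  have := Real.quadratic_le_exp_of_nonneg hd.le
  nlinarith

lemma logk_n1 {d : ℝ} (hd : 0 < d) :
    Real.log (n1 d + d) - (n1 d + d) = Real.log (n1 d) - n1 d := by
  have h : n1 d + d = n1 d * Real.exp d := by
    unfold n1
    have := exp_sub_one_pos hd
    field_simp
    ring
  have : Real.log (n1 d + d) = Real.log (n1 d) + d := by
    rw [h, Real.log_mul (n1_pos hd).ne' (Real.exp_pos d).ne', Real.log_exp]
  rw [this]; ring

lemma continuousOn_n1 : ContinuousOn n1 (Ioi 0) := by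
  unfold n1
  refine ContinuousOn.div continuousOn_id (by fun_prop) (fun d hd => (exp_sub_one_pos hd).ne')

section Main

variable {G : ℝ → ℝ} (hpos : ∀ y, 0 < G y) (hle : ∀ y, G y ≤ 1) (hanti : Antitone G)
  (hconc : ConcaveOn ℝ univ (fun y => Real.log (G y)))
  (hint : Integrable (fun y => G y - step (4 / 3) y))
  (hmean : ∫ y, (G y - step (4 / 3) y) = 0)

include hpos hint in
lemma not_low {D b : ℝ} (hD : D < 0) (h : ∀ y ≤ b, Real.log (G y) ≤ D) : False := by
  have hc : 0 < 1 - Real.exp D := by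
    have := Real.exp_lt_one_iff.mpr hD
    linarith
  have h1 := hint.measure_norm_ge_lt_top hc
  have h2 : Iic (min b (4 / 3)) ⊆ {y | 1 - Real.exp D ≤ ‖G y - step (4 / 3) y‖} := by
    intro y hy
    have hy' : y ≤ min b (4 / 3) := hy
    have hyb : y ≤ b := hy'.trans (min_le_left _ _)
    have hyp : y ≤ 4 / 3 := hy'.trans (min_le_right _ _)
    have hG : G y ≤ Real.exp D := by
      rw [← Real.exp_log (hpos y)]; exact Real.exp_le_exp.mpr (h y hyb)
    simp only [mem_ofPred_eq, step, hyp, if_true, Real.norm_eq_abs]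
    rw [abs_sub_comm]
    exact le_trans (by linarith) (le_abs_self _)
  have h3 := measure_mono (μ := volume) h2
  rw [Real.volume_Iic] at h3
  exact absurd (lt_of_le_of_lt h3 h1) (lt_irrefl _)

include hpos hle hconc hint hmean in
lemma grunbaum : -1 ≤ Real.log (G (4 / 3)) := by
  by_contra hc
  push Not at hc
  have hcont : Continuous (fun y => Real.log (G y)) :=
    continuousOn_univ.mp (hconc.continuousOn isOpen_univ)
  have hcv : ConvexOn ℝ univ (fun y => -Real.log (G y)) := hconc.neg
  have hcn : Continuous (fun y => -Real.log (G y)) := hcont.neg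
  obtain ⟨c, c', hl, he⟩ := ConvexOn.exists_affine_le_of_lt_real (f := fun y => -Real.log (G y))
    (x := 4 / 3) (a := (1 - Real.log (G (4 / 3))) / 2) (mem_univ _) (by linarith) isClosed_univ
    (hcn.lowerSemicontinuous.lowerSemicontinuousOn _) hcv
  set D := -((1 - Real.log (G (4 / 3))) / 2) with hD
  have hD1 : D < -1 := by rw [hD]; linarith
  have hl' : ∀ y, Real.log (G y) ≤ D - c * (y - 4 / 3) := by
    intro y
    have := hl y (mem_univ _)
    rw [hD, ← he]; linarith
  rcases le_or_gt c 0 with hc0 | hc0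
  · refine not_low hpos hint (D := D) (b := 4 / 3) (by linarith) (fun y hy => ?_)
    have := hl' y
    nlinarith
  · have hGle : ∀ y, G y ≤ Gc c D y := by
      intro y
      refine le_min (hle y) ?_
      rw [← Real.exp_log (hpos y)]; exact Real.exp_le_exp.mpr (hl' y)
    have := integral_mono hint (integrable_Gc hc0 D) (fun y => by simp only; linarith [hGle y])
    rw [hmean, integral_Gc hc0] at this
    have h2 : (1 + D) / c < 0 := div_neg_of_neg_of_pos (by linarith) hc0
    linarith

/-- minus the slope of the chord -/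
noncomputable def uu (G : ℝ → ℝ) (d : ℝ) : ℝ :=
  (Real.log (G (n1 d)) - Real.log (G (n1 d + d))) / d

/-- value of the chord at `4/3` -/
noncomputable def DD (G : ℝ → ℝ) (d : ℝ) : ℝ :=
  Real.log (G (n1 d)) - uu G d * (4 / 3 - n1 d)

include hconc in
lemma concave_diff (u D : ℝ) :
    ConcaveOn ℝ univ (fun y => Real.log (G y) - (D - u * (y - 4 / 3))) := by
  refine hconc.sub ?_
  refine ⟨convex_univ, fun x _ y _ a b _ _ hab => le_of_eq ?_⟩
  simp only [smul_eq_mul]
  have : b = 1 - a := by linarith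
  subst this; ring

lemma diff_n1 (d : ℝ) : Real.log (G (n1 d)) - (DD G d - uu G d * (n1 d - 4 / 3)) = 0 := by
  unfold DD; ring

lemma diff_n2 {d : ℝ} (hd : 0 < d) :
    Real.log (G (n1 d + d)) - (DD G d - uu G d * (n1 d + d - 4 / 3)) = 0 := by
  have : uu G d * d = Real.log (G (n1 d)) - Real.log (G (n1 d + d)) := by
    unfold uu; field_simp
  unfold DD; linarith

include hconc in
lemma chord_in {d : ℝ} (hd : 0 < d) {y : ℝ} (h1 : n1 d ≤ y) (h2 : y ≤ n1 d + d) :
    DD G d - uu G d * (y - 4 / 3) ≤ Real.log (G y) := by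
  have := chord_ge (concave_diff hconc (uu G d) (DD G d)) (mem_univ (n1 d)) (mem_univ (n1 d + d))
    (diff_n1 d) (diff_n2 hd) h1 h2
  linarith

include hconc in
lemma chord_out {d : ℝ} (hd : 0 < d) {y : ℝ} (h : y ≤ n1 d ∨ n1 d + d ≤ y) :
    Real.log (G y) ≤ DD G d - uu G d * (y - 4 / 3) := by
  have := chord_le (concave_diff hconc (uu G d) (DD G d)) (mem_univ (n1 d)) (mem_univ (n1 d + d))
    (by linarith) (diff_n1 d) (diff_n2 hd) (mem_univ y) h
  linarith

include hpos hanti in
lemma uu_nonneg {d : ℝ} (hd : 0 < d) : 0 ≤ uu G d := by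
  unfold uu
  apply div_nonneg _ hd.le
  have := Real.log_le_log (hpos _) (hanti (show n1 d ≤ n1 d + d by linarith))
  linarith

include hpos hconc in
lemma continuous_G : Continuous G := by
  have hcont : Continuous (fun y => Real.log (G y)) :=
    continuousOn_univ.mp (hconc.continuousOn isOpen_univ)
  have : G = fun y => Real.exp (Real.log (G y)) := by
    funext y; rw [Real.exp_log (hpos y)]
  rw [this]; fun_prop

include hpos hle hanti hconc hint hmean in
lemma case_eq {d : ℝ} (hd : 0 < d) (hD : DD G d = -1) :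
    cstar ≤ ∫ y in Ioi 0, y * Real.exp (-y) * G y := by
  have hu0 := uu_nonneg hpos hanti hd
  have hu : 0 < uu G d := by
    rcases eq_or_lt_of_le hu0 with h | h
    · exfalso
      refine not_low hpos hint (D := -1) (b := n1 d) (by norm_num) (fun y hy => ?_)
      have := chord_out hconc hd (Or.inl hy)
      rw [hD, ← h] at this
      linarith
    · exact h
  set u := uu G d with hudef
  set lam := Real.exp (Real.log (n1 d) - n1 d) with hlam
  have hlam0 : 0 < lam := Real.exp_pos _
  set k0 : ℝ → ℝ := Set.indicator (Ioi 0) (fun y => y * Real.exp (-y)) with hk0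
  have hn1 : n1 d ∈ Ioi (0 : ℝ) := n1_pos hd
  have hn2 : n1 d + d ∈ Ioi (0 : ℝ) := by have := n1_pos hd; simp only [mem_Ioi]; linarith
  have hpt : ∀ y, 0 ≤ (k0 y - lam) * (G y - Gc u (-1) y) := by
    intro y
    by_cases hy : n1 d ≤ y ∧ y ≤ n1 d + d
    · have hy0 : 0 < y := lt_of_lt_of_le (n1_pos hd) hy.1
      apply mul_nonneg
      · have h1 := chord_ge concave_logk hn1 hn2 rfl (logk_n1 hd) hy.1 hy.2
        have : k0 y = Real.exp (Real.log y - y) := by
          rw [hk0, Set.indicator_of_mem (show y ∈ Ioi (0 : ℝ) from hy0), k_eq_exp hy0]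
        rw [this, hlam]
        have := Real.exp_le_exp.mpr h1
        linarith
      · have h1 := chord_in hconc hd hy.1 hy.2
        rw [hD] at h1
        have h2 : Gc u (-1) y ≤ Real.exp (-1 - u * (y - 4 / 3)) := min_le_right _ _
        have h3 := Real.exp_le_exp.mpr h1
        rw [Real.exp_log (hpos y)] at h3
        linarith
    · have hy' : y ≤ n1 d ∨ n1 d + d ≤ y := by
        rcases not_and_or.mp hy with h | h
        · exact Or.inl (not_le.mp h).le
        · exact Or.inr (not_le.mp h).le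
      apply mul_nonneg_of_nonpos_of_nonpos
      · by_cases hy0 : 0 < y
        · have h1 := chord_le concave_logk hn1 hn2 (by linarith) rfl (logk_n1 hd)
            (show y ∈ Ioi (0 : ℝ) from hy0) hy'
          have : k0 y = Real.exp (Real.log y - y) := by
            rw [hk0, Set.indicator_of_mem (show y ∈ Ioi (0 : ℝ) from hy0), k_eq_exp hy0]
          rw [this, hlam]
          have := Real.exp_le_exp.mpr h1
          linarith
        · have : k0 y = 0 := by
            rw [hk0, Set.indicator_of_notMem (show y ∉ Ioi (0 : ℝ) from hy0)]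
          rw [this]; linarith
      · have h1 := chord_out hconc hd hy'
        rw [hD] at h1
        have h3 := Real.exp_le_exp.mpr h1
        rw [Real.exp_log (hpos y)] at h3
        have : G y ≤ Gc u (-1) y := le_min (hle y) h3
        linarith
  have iG := integrableOn_k_mul (continuous_G hpos hconc) (fun y => (hpos y).le) hle
  have iC := integrableOn_k_mul (continuous_Gc u (-1)) (Gc_nonneg u (-1)) (Gc_le_one u (-1))
  have iG' := (integrable_indicator_iff measurableSet_Ioi).2 iG
  have iC' := (integrable_indicator_iff measurableSet_Ioi).2 iC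
  have iS := integrable_Gc hu (-1)
  have hfun : (fun y => (k0 y - lam) * (G y - Gc u (-1) y)) = fun y =>
      (Set.indicator (Ioi 0) (fun y => y * Real.exp (-y) * G y) y -
        Set.indicator (Ioi 0) (fun y => y * Real.exp (-y) * Gc u (-1) y) y) -
      lam * ((G y - step (4 / 3) y) - (Gc u (-1) y - step (4 / 3) y)) := by
    funext y
    by_cases hy : y ∈ Ioi (0 : ℝ)
    · simp only [hk0, Set.indicator_of_mem hy]; ring
    · simp only [hk0, Set.indicator_of_notMem hy]; ring
  have h0 : 0 ≤ ∫ y, (k0 y - lam) * (G y - Gc u (-1) y) := integral_nonneg hpt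
  have i1 : Integrable (fun y => Set.indicator (Ioi 0) (fun y => y * Real.exp (-y) * G y) y -
        Set.indicator (Ioi 0) (fun y => y * Real.exp (-y) * Gc u (-1) y) y) := iG'.sub iC'
  have i2 : Integrable (fun y => lam * ((G y - step (4 / 3) y) - (Gc u (-1) y - step (4 / 3) y))) :=
    (hint.sub iS).const_mul lam
  rw [hfun, integral_sub i1 i2, integral_sub iG' iC',
    integral_const_mul, integral_sub hint iS, hmean, integral_Gc hu,
    integral_indicator measurableSet_Ioi, integral_indicator measurableSet_Ioi] at h0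
  have := cstar_le_F hu
  simp only [add_neg_cancel, zero_div, sub_zero, mul_zero] at h0
  linarith

include hpos hle hanti hconc in
lemma case_gt {d : ℝ} (hd : 0 < d) (hD : -1 < DD G d) :
    cstar - 4 * Real.exp 3 / d ≤ ∫ y in Ioi 0, y * Real.exp (-y) * G y := by
  have hu0 := uu_nonneg hpos hanti hd
  set u := uu G d with hudef
  have hy1 := n1_pos hd
  have hy1' := n1_lt_one hd
  have hy1'' := n1_le hd
  have hu3 : u ≤ 3 := by
    have h1 : Real.log (G (n1 d)) ≤ 0 := Real.log_nonpos (hpos _).le (hle _)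
    have h2 : DD G d = Real.log (G (n1 d)) - u * (4 / 3 - n1 d) := rfl
    nlinarith
  have hβ : 0 < 1 + u := by linarith
  have iG := integrableOn_k_mul (continuous_G hpos hconc) (fun y => (hpos y).le) hle
  have hsub : Ioc (n1 d) (n1 d + d) ⊆ Ioi 0 := fun y hy => lt_trans hy1 hy.1
  have s1 : ∫ y in Ioc (n1 d) (n1 d + d), y * Real.exp (-y) * G y ≤
      ∫ y in Ioi 0, y * Real.exp (-y) * G y := by
    refine setIntegral_mono_set iG ?_ hsub.eventuallyLE
    refine (ae_restrict_iff' measurableSet_Ioi).2 (Eventually.of_forall fun y hy => ?_)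
    have hy' : 0 < y := hy
    have := hpos y
    simp only [Pi.zero_apply]
    positivity
  have s2 : ∫ y in Ioc (n1 d) (n1 d + d), Real.exp (-1 + 4 / 3 * u) * (y * Real.exp (-(1 + u) * y)) ≤
      ∫ y in Ioc (n1 d) (n1 d + d), y * Real.exp (-y) * G y := by
    refine setIntegral_mono_on ?_ (iG.mono_set hsub) measurableSet_Ioc (fun y hy => ?_)
    · exact ((integrableOn_mul_exp hβ le_rfl).mono_set hsub).const_mul _
    · have hy0 : 0 < y := hsub hy
      have h1 := chord_in hconc hd hy.1.le hy.2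
      have h2 : Real.exp (-1 - u * (y - 4 / 3)) ≤ G y := by
        rw [← Real.exp_log (hpos y)]; apply Real.exp_le_exp.mpr; linarith
      have : Real.exp (-y) * Real.exp (-1 - u * (y - 4 / 3)) =
          Real.exp (-1 + 4 / 3 * u) * Real.exp (-(1 + u) * y) := by
        rw [← Real.exp_add, ← Real.exp_add]; congr 1; ring
      calc _ = y * Real.exp (-y) * Real.exp (-1 - u * (y - 4 / 3)) := by
            rw [mul_assoc y, this]; ring
        _ ≤ _ := by gcongr
  rw [integral_const_mul, integral_mul_exp_Ioc hβ (by linarith)] at s2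
  have t1 : 1 / (1 + u) ^ 2 - 2 / d ≤
      (n1 d / (1 + u) + 1 / (1 + u) ^ 2) * Real.exp (-(1 + u) * n1 d) := by
    have e1 : 1 - (1 + u) * n1 d ≤ Real.exp (-(1 + u) * n1 d) := by
      have := Real.add_one_le_exp (-(1 + u) * n1 d); linarith
    have e2 : 1 / (1 + u) ^ 2 * (1 - (1 + u) * n1 d) = 1 / (1 + u) ^ 2 - n1 d / (1 + u) := by
      field_simp
    have e3 : n1 d / (1 + u) ≤ n1 d := div_le_self hy1.le (by linarith)
    have e4 : 0 ≤ n1 d / (1 + u) * Real.exp (-(1 + u) * n1 d) := by positivity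
    have e5 : 1 / (1 + u) ^ 2 * (1 - (1 + u) * n1 d) ≤
        1 / (1 + u) ^ 2 * Real.exp (-(1 + u) * n1 d) := by gcongr
    linarith
  have t2 : ((n1 d + d) / (1 + u) + 1 / (1 + u) ^ 2) * Real.exp (-(1 + u) * (n1 d + d)) ≤ 2 / d := by
    set z := n1 d + d with hz
    have hz0 : 0 < z := by linarith
    have e1 : z / (1 + u) ≤ z := div_le_self hz0.le (by linarith)
    have e2 : 1 / (1 + u) ^ 2 ≤ 1 := by
      rw [div_le_one (by positivity)]; nlinarith
    have e3 : Real.exp (-(1 + u) * z) ≤ Real.exp (-z) := by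
      apply Real.exp_le_exp.mpr; nlinarith
    have e4 : (z + 1) * Real.exp (-z) ≤ 2 / z := by
      have q := Real.quadratic_le_exp_of_nonneg hz0.le
      have hEE : Real.exp (-z) * Real.exp z = 1 := by rw [← Real.exp_add]; simp
      have hE := Real.exp_pos (-z)
      rw [le_div_iff₀ hz0]
      nlinarith
    have e5 : 2 / z ≤ 2 / d := by gcongr; linarith
    calc _ ≤ (z + 1) * Real.exp (-z) := by gcongr
      _ ≤ _ := e4.trans e5
  have t3 := cstar_le_total hu0
  have t4 : Real.exp (-1 + 4 / 3 * u) ≤ Real.exp 3 := Real.exp_le_exp.mpr (by linarith)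
  have t5 : 0 < Real.exp (-1 + 4 / 3 * u) := Real.exp_pos _
  have t6 : Real.exp (-1 + 4 / 3 * u) * (1 / (1 + u) ^ 2 - 2 / d - 2 / d) ≤
      Real.exp (-1 + 4 / 3 * u) * ((n1 d / (1 + u) + 1 / (1 + u) ^ 2) * Real.exp (-(1 + u) * n1 d) -
        ((n1 d + d) / (1 + u) + 1 / (1 + u) ^ 2) * Real.exp (-(1 + u) * (n1 d + d))) := by
    gcongr
  have t7 : Real.exp (-1 + 4 / 3 * u) * (1 / (1 + u) ^ 2 - 2 / d - 2 / d) =
      Real.exp (-1 + 4 / 3 * u) / (1 + u) ^ 2 - 4 * Real.exp (-1 + 4 / 3 * u) / d := by ring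
  have t8 : 4 * Real.exp (-1 + 4 / 3 * u) / d ≤ 4 * Real.exp 3 / d := by gcongr
  linarith

include hconc in
lemma continuousOn_DD : ContinuousOn (DD G) (Ioi 0) := by
  have hcont : Continuous (fun y => Real.log (G y)) :=
    continuousOn_univ.mp (hconc.continuousOn isOpen_univ)
  have h1 : ContinuousOn (fun d => Real.log (G (n1 d))) (Ioi 0) :=
    hcont.comp_continuousOn continuousOn_n1
  have h2 : ContinuousOn (fun d => Real.log (G (n1 d + d))) (Ioi 0) :=
    hcont.comp_continuousOn (continuousOn_n1.add continuousOn_id)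
  unfold DD uu
  refine h1.sub (ContinuousOn.mul ((h1.sub h2).div continuousOn_id (fun d hd => ?_))
    (continuousOn_const.sub continuousOn_n1))
  exact (ne_of_gt hd)

include hpos hle hanti hconc hint hmean in
theorem main_ineq : cstar ≤ ∫ y in Ioi 0, y * Real.exp (-y) * G y := by
  have h0 : -1 ≤ DD G (1 / 3) := by
    have h1 := chord_out hconc (d := 1 / 3) (by norm_num) (y := 4 / 3)
      (Or.inr (by have := n1_lt_one (d := 1 / 3) (by norm_num); linarith))
    have h2 := grunbaum hpos hle hconc hint hmean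
    linarith
  by_cases h : ∃ d, 1 / 3 ≤ d ∧ DD G d ≤ -1
  · obtain ⟨d, hd, hD⟩ := h
    have hc : ContinuousOn (DD G) (Icc (1 / 3) d) :=
      (continuousOn_DD hconc).mono (fun x hx => by
        have := hx.1; simp only [mem_Ioi]; linarith)
    obtain ⟨e, he, hDe⟩ := intermediate_value_Icc' hd hc ⟨hD, h0⟩
    exact case_eq hpos hle hanti hconc hint hmean (by linarith [he.1]) hDe
  · push Not at h
    have hl : Tendsto (fun d : ℝ => cstar - 4 * Real.exp 3 / d) atTop (𝓝 (cstar - 0)) :=
      tendsto_const_nhds.sub (tendsto_const_nhds.div_atTop tendsto_id)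
    rw [sub_zero] at hl
    refine le_of_tendsto hl ?_
    filter_upwards [eventually_ge_atTop (1 / 3 : ℝ)] with d hd
    exact case_gt hpos hle hanti hconc (by linarith) (h d hd)

end Main

end Crest.Agent.H0280
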