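import Crest.Agent.H0280.Step
import Crest.Prelude.Def_TruncExpWeight

set_option autoImplicit false

open MeasureTheory Set Filter Topology

namespace Crest.Agent.H0280

/-- The standard exponential law. -/
noncomputable def expo : Measure ℝ :=
  (volume.restrict (Ioi (0 : ℝ))).withDensity (fun t => ENNReal.ofReal (Real.exp (-t)))

lemma integral_expo (f : ℝ → ℝ) : ∫ t, f t ∂expo = ∫ t in Ioi 0, f t * Real.exp (-t) := by
  unfold expo
  rw [integral_withDensity_eq_integral_toReal_smul (by fun_prop)
    (Eventually.of_forall fun _ => ENNReal.ofReal_lt_top)]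
  refine integral_congr_ae (Eventually.of_forall fun t => ?_)
  simp only [ENNReal.toReal_ofReal (Real.exp_pos _).le, smul_eq_mul]
  ring

lemma integrableOn_exp_neg : IntegrableOn (fun t => Real.exp (-t)) (Ioi (0 : ℝ)) := by
  simpa using integrableOn_exp_mul_Ioi (a := -1) (by norm_num) 0

lemma expo_apply {s : Set ℝ} (hs : MeasurableSet s) :
    expo s = ENNReal.ofReal (∫ t, Real.exp (-t) ∂((volume.restrict (Ioi (0 : ℝ))).restrict s)) := by
  unfold expo
  rw [withDensity_apply _ hs, ofReal_integral_eq_lintegral_ofReal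
    (integrableOn_exp_neg.integrable.restrict) (Eventually.of_forall fun t => (Real.exp_pos _).le)]

instance expo_prob : IsProbabilityMeasure expo := by
  constructor
  rw [expo_apply MeasurableSet.univ, Measure.restrict_univ, integral_exp_neg_Ioi_zero]
  simp

lemma integrable_id_expo : Integrable (fun t : ℝ => t) expo := by
  unfold expo
  rw [integrable_withDensity_iff (by fun_prop) (Eventually.of_forall fun _ => ENNReal.ofReal_lt_top)]
  have := integrableOn_mul_exp (β := 1) one_pos (le_refl (0 : ℝ))
  refine this.congr (Eventually.of_forall fun t => ?_)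
  simp [ENNReal.toReal_ofReal (Real.exp_pos _).le]

lemma integral_id_expo : ∫ t, t ∂expo = 1 := by
  rw [integral_expo]
  have := integral_mul_exp (β := 1) one_pos (le_refl (0 : ℝ))
  simpa using this

/-- The law of `n` independent standard exponentials. -/
noncomputable def PP (n : ℕ) : Measure (Fin n → ℝ) := Measure.pi (fun _ => expo)

instance PP_prob (n : ℕ) : IsProbabilityMeasure (PP n) := by unfold PP; infer_instance

lemma PP_eq (n : ℕ) : PP n =
    (volume.restrict (Set.pi univ (fun _ : Fin n => Ioi (0 : ℝ)))).withDensity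
      (fun x => ENNReal.ofReal (Real.exp (-∑ i, x i))) := by
  unfold PP
  refine Measure.pi_eq (fun s hs => ?_)
  rw [withDensity_apply _ (MeasurableSet.univ_pi hs), volume_pi, Measure.restrict_pi_pi,
    Measure.restrict_pi_pi]
  have e : ∀ x : Fin n → ℝ, Real.exp (-∑ i, x i) = ∏ i, Real.exp (-x i) := by
    intro x; rw [← Real.exp_sum, Finset.sum_neg_distrib]
  simp_rw [e]
  rw [← ofReal_integral_eq_lintegral_ofReal
    (Integrable.fintype_prod (f := fun _ t => Real.exp (-t))
      (fun i => integrableOn_exp_neg.integrable.restrict))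
    (Eventually.of_forall fun x => Finset.prod_nonneg fun i _ => (Real.exp_pos _).le),
    integral_fintype_prod_eq_prod (fun _ t => Real.exp (-t)),
    ENNReal.ofReal_prod_of_nonneg (fun i _ => integral_nonneg fun t => (Real.exp_pos _).le)]
  exact Finset.prod_congr rfl fun i _ => (expo_apply (hs i)).symm

lemma integral_PP (n : ℕ) (f : (Fin n → ℝ) → ℝ) :
    ∫ x in Set.pi univ (fun _ : Fin n => Ioi (0 : ℝ)), f x * Real.exp (-∑ i, x i) =
      ∫ x, f x ∂(PP n) := by
  rw [PP_eq, integral_withDensity_eq_integral_toReal_smul (by fun_prop)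
    (Eventually.of_forall fun _ => ENNReal.ofReal_lt_top)]
  refine integral_congr_ae (Eventually.of_forall fun t => ?_)
  simp only [ENNReal.toReal_ofReal (Real.exp_pos _).le, smul_eq_mul]
  ring

/-- Survival function of the linear form. -/
noncomputable def Sv (n : ℕ) (a : Fin n → ℝ) (s : ℝ) : ℝ := (PP n).real {x | s ≤ ∑ i, a i * x i}

lemma Sv_le_one (n : ℕ) (a : Fin n → ℝ) (s : ℝ) : Sv n a s ≤ 1 := measureReal_le_one

lemma Sv_nonneg (n : ℕ) (a : Fin n → ℝ) (s : ℝ) : 0 ≤ Sv n a s := measureReal_nonneg

lemma Sv_anti (n : ℕ) (a : Fin n → ℝ) : Antitone (Sv n a) := by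
  intro s t hst
  exact measureReal_mono (fun x hx => le_trans hst hx)

lemma Sv_split (n : ℕ) (a : Fin (n + 1) → ℝ) (i : Fin (n + 1)) (s : ℝ) :
    Sv (n + 1) a s = ∫ t in Ioi 0, Sv n (fun j => a (i.succAbove j)) (s - a i * t) * Real.exp (-t) := by
  have hmp := measurePreserving_piFinSuccAbove (fun _ : Fin (n + 1) => expo) i
  set A : Set (ℝ × (Fin n → ℝ)) := {p | s ≤ a i * p.1 + ∑ j, a (i.succAbove j) * p.2 j} with hA
  have hAm : MeasurableSet A := measurableSet_le measurable_const (by fun_prop)
  have e1 : {x : Fin (n + 1) → ℝ | s ≤ ∑ i, a i * x i} =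
      (MeasurableEquiv.piFinSuccAbove (fun _ => ℝ) i) ⁻¹' A := by
    ext x
    simp only [hA, mem_ofPred_eq, mem_preimage, MeasurableEquiv.piFinSuccAbove_apply]
    rw [Fin.sum_univ_succAbove _ i]
    rfl
  unfold Sv
  rw [← integral_expo (fun t => (PP n).real {x | s - a i * t ≤ ∑ j, a (i.succAbove j) * x j})]
  unfold PP
  rw [e1, Measure.real, hmp.measure_preimage hAm.nullMeasurableSet, Measure.prod_apply hAm,
    ← integral_toReal (measurable_measure_prodMk_left hAm).aemeasurable
      (Eventually.of_forall fun _ => measure_lt_top _ _)]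
  refine integral_congr_ae (Eventually.of_forall fun t => ?_)
  simp only [Measure.real]
  congr 2
  ext x
  simp only [hA, mem_preimage, mem_ofPred_eq]
  constructor <;> intro h <;> linarith

lemma Sv_zero (a : Fin 0 → ℝ) (s : ℝ) : Sv 0 a s = step 0 s := by
  unfold Sv step
  by_cases h : s ≤ 0 <;> simp [h]

lemma Sv_one (a : Fin 1 → ℝ) (ha : 0 < a 0) (s : ℝ) :
    Sv 1 a s = Real.exp (min 0 (-s / a 0)) := by
  rw [Sv_split 0 a 0]
  simp_rw [Sv_zero]
  rcases le_or_gt s 0 with h | h
  · have : ∫ t in Ioi 0, step 0 (s - a 0 * t) * Real.exp (-t) = ∫ t in Ioi 0, Real.exp (-t) := by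
      refine setIntegral_congr_fun measurableSet_Ioi (fun t ht => ?_)
      have ht' : 0 < t := ht
      have : s - a 0 * t ≤ 0 := by nlinarith [mul_pos ha ht']
      simp [step, this]
    rw [this, integral_exp_neg_Ioi_zero, min_eq_left (div_nonneg (by linarith) ha.le)]
    simp
  · have hq : 0 < s / a 0 := div_pos h ha
    have : ∫ t in Ioi 0, step 0 (s - a 0 * t) * Real.exp (-t) =
        ∫ t in Ioi 0, Set.indicator (Ici (s / a 0)) (fun t => Real.exp (-t)) t := by
      refine setIntegral_congr_fun measurableSet_Ioi (fun t _ => ?_)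
      have hiff : s - a 0 * t ≤ 0 ↔ s / a 0 ≤ t := by
        rw [div_le_iff₀ ha]; constructor <;> intro h <;> linarith
      by_cases ht : s / a 0 ≤ t
      · simp [step, hiff.2 ht, Set.indicator, ht]
      · have : ¬ (s - a 0 * t ≤ 0) := fun h => ht (hiff.1 h)
        simp only [step, this, if_false, Set.indicator, mem_Ici, ht, zero_mul]
    have hsub : Ici (s / a 0) ⊆ Ioi (0 : ℝ) := fun t ht => lt_of_lt_of_le hq ht
    rw [this, setIntegral_indicator measurableSet_Ici,
      inter_eq_right.mpr hsub, integral_Ici_eq_integral_Ioi,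
      integral_exp_neg_Ioi, min_eq_right (by rw [neg_div]; linarith), neg_div]

lemma Sv_good : ∀ (n : ℕ) (a : Fin n → ℝ), (∃ i, 0 < a i) →
    (∀ s, 0 < Sv n a s) ∧ ConcaveOn ℝ univ (fun s => Real.log (Sv n a s)) := by
  intro n
  induction n with
  | zero => intro a ⟨i, _⟩; exact i.elim0
  | succ n ih =>
    intro a ⟨i0, hi0⟩
    rcases n with _ | n
    · have h0 : i0 = 0 := Fin.fin_one_eq_zero i0
      subst h0
      simp_rw [Sv_one a hi0, Real.log_exp]
      refine ⟨fun s => Real.exp_pos _, ?_⟩
      have h1 : ConcaveOn ℝ univ (fun s : ℝ => -s / a 0) := by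
        refine ⟨convex_univ, fun x _ y _ p q _ _ _ => le_of_eq ?_⟩
        simp only [smul_eq_mul]; ring
      exact (concaveOn_const (0 : ℝ) convex_univ).inf h1
    · obtain ⟨i, hi⟩ := exists_ne i0
      obtain ⟨j, hj⟩ := Fin.exists_succAbove_eq hi.symm
      obtain ⟨h1, h2⟩ := ih (fun j => a (i.succAbove j)) ⟨j, by rw [hj]; exact hi0⟩
      simp_rw [Sv_split (n + 1) a i]
      exact step_logconcave h1 (Sv_le_one _ _) h2 (a i)

lemma integrable_lin (n : ℕ) (a : Fin n → ℝ) :
    Integrable (fun x : Fin n → ℝ => ∑ i, a i * x i) (PP n) := by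
  refine integrable_finsetSum _ (fun i _ => Integrable.const_mul ?_ _)
  exact ((measurePreserving_eval (fun _ : Fin n => expo) i).integrable_comp_of_integrable
    integrable_id_expo)

lemma integral_lin (n : ℕ) (a : Fin n → ℝ) :
    ∫ x, (∑ i, a i * x i) ∂(PP n) = ∑ i, a i := by
  rw [integral_finsetSum]
  · refine Finset.sum_congr rfl (fun i _ => ?_)
    rw [integral_const_mul]
    have h := (measurePreserving_eval (fun _ : Fin n => expo) i)
    have h2 : ∫ x, x i ∂(PP n) = ∫ t, t ∂expo := by
      rw [← h.map_eq, integral_map h.measurable.aemeasurable (by fun_prop)]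
      rfl
    rw [h2, integral_id_expo, mul_one]
  · intro i _
    exact Integrable.const_mul ((measurePreserving_eval (fun _ : Fin n => expo) i).integrable_comp_of_integrable
      integrable_id_expo) _

lemma measurable_step2 {α : Type*} [MeasurableSpace α] {f g : α → ℝ} (hf : Measurable f)
    (hg : Measurable g) : Measurable (fun p => step (f p) (g p)) := by
  unfold step
  exact Measurable.ite (measurableSet_le hg hf) measurable_const measurable_const

lemma integral_step_PP (n : ℕ) (a : Fin n → ℝ) (y : ℝ) :
    ∫ x, step (4 / 3 + ∑ i, a i * x i) y ∂(PP n) = Sv n a (y - 4 / 3) := by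
  unfold Sv
  rw [← integral_indicator_one (measurableSet_le measurable_const (by fun_prop))]
  refine integral_congr_ae (Eventually.of_forall fun x => ?_)
  simp only [step, Set.indicator, mem_ofPred_eq, Pi.one_apply]
  have : y ≤ 4 / 3 + ∑ i, a i * x i ↔ y - 4 / 3 ≤ ∑ i, a i * x i := by
    constructor <;> intro h <;> linarith
  simp only [this]

lemma integrable_step_PP (n : ℕ) (a : Fin n → ℝ) (y : ℝ) :
    Integrable (fun x : Fin n → ℝ => step (4 / 3 + ∑ i, a i * x i) y) (PP n) := by
  refine Integrable.mono' (integrable_const (1 : ℝ))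
    (measurable_step2 (by fun_prop) measurable_const).aestronglyMeasurable
    (Eventually.of_forall fun x => ?_)
  unfold step; split_ifs <;> simp

lemma Sv_mean (n : ℕ) (a : Fin n → ℝ) :
    Integrable (fun y => Sv n a (y - 4 / 3) - step (4 / 3) y) ∧
      ∫ y, (Sv n a (y - 4 / 3) - step (4 / 3) y) = ∑ i, a i := by
  set F : (Fin n → ℝ) → ℝ → ℝ := fun x y => step (4 / 3 + ∑ i, a i * x i) y - step (4 / 3) y with hF
  have hm : Measurable (Function.uncurry F) :=
    (measurable_step2 (f := fun p : (Fin n → ℝ) × ℝ => 4 / 3 + ∑ i, a i * p.1 i) (by fun_prop)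
      measurable_snd).sub (measurable_step2 measurable_const measurable_snd)
  have hI : Integrable (Function.uncurry F) ((PP n).prod volume) := by
    rw [integrable_prod_iff hm.aestronglyMeasurable]
    refine ⟨Eventually.of_forall fun x => integrable_step_sub (4 / 3 + ∑ i, a i * x i) (4 / 3), ?_⟩
    simp only [Function.uncurry, hF, integral_norm_step_sub, add_sub_cancel_left]
    exact (integrable_lin n a).abs
  have e : ∀ y, ∫ x, F x y ∂(PP n) = Sv n a (y - 4 / 3) - step (4 / 3) y := by
    intro y
    simp only [hF]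
    rw [integral_sub (integrable_step_PP n a y) (integrable_const _), integral_step_PP]
    simp
  constructor
  · have := hI.integral_prod_right
    simp only [Function.uncurry, e] at this
    exact this
  · have := integral_integral_swap hI
    simp only [e] at this
    rw [← this]
    simp only [hF, integral_step_sub, add_sub_cancel_left]
    exact integral_lin n a

lemma one_sub_weight (w : ℝ) :
    1 - Crest.AlgGeometry.truncExpWeight w = ∫ y in Ioi 0, y * Real.exp (-y) * step w y := by
  unfold Crest.AlgGeometry.truncExpWeight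
  split_ifs with h
  · rw [sub_self]
    symm
    refine setIntegral_eq_zero_of_forall_eq_zero (fun y hy => ?_)
    have hy' : 0 < y := hy
    have : ¬ y ≤ w := by linarith
    simp [step, this]
  · push Not at h
    have : ∫ y in Ioi 0, y * Real.exp (-y) * step w y =
        ∫ y in Ioi 0, Set.indicator (Iic w) (fun y => y * Real.exp (-1 * y)) y := by
      refine setIntegral_congr_fun measurableSet_Ioi (fun y _ => ?_)
      by_cases hy : y ≤ w <;> simp [step, hy, Set.indicator]
    rw [this, setIntegral_indicator measurableSet_Iic, Ioi_inter_Iic,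
      integral_mul_exp_Ioc one_pos h.le]
    simp only [one_pow, div_one, zero_add, mul_zero, Real.exp_zero, mul_one, neg_mul,
      one_mul]
    ring

lemma weight_integral (n : ℕ) (a : Fin n → ℝ) :
    ∫ x, Crest.AlgGeometry.truncExpWeight (4 / 3 + ∑ i, a i * x i) ∂(PP n) =
      1 - ∫ y in Ioi 0, y * Real.exp (-y) * Sv n a (y - 4 / 3) := by
  set F : (Fin n → ℝ) → ℝ → ℝ :=
    fun x y => y * Real.exp (-y) * step (4 / 3 + ∑ i, a i * x i) y with hF
  have hm : Measurable (Function.uncurry F) := by
    refine Measurable.mul (by fun_prop) ?_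
    exact measurable_step2 (f := fun p : (Fin n → ℝ) × ℝ => 4 / 3 + ∑ i, a i * p.1 i) (by fun_prop)
      measurable_snd
  have hk : Integrable (fun y : ℝ => y * Real.exp (-y)) (volume.restrict (Ioi 0)) := by
    simpa using (integrableOn_mul_exp (β := 1) one_pos (le_refl (0 : ℝ))).integrable
  have hI : Integrable (Function.uncurry F) ((PP n).prod (volume.restrict (Ioi 0))) := by
    refine Integrable.mono (hk.comp_snd (PP n)) hm.aestronglyMeasurable
      (Eventually.of_forall fun p => ?_)
    simp only [Function.uncurry, hF, step]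
    split_ifs
    · simp
    · simp only [mul_zero, norm_zero]; exact norm_nonneg _
  have h1 := integral_integral_swap hI
  have h2 := hI.integral_prod_left
  simp only [Function.uncurry, hF, ← one_sub_weight] at h1 h2
  simp only [integral_const_mul, integral_step_PP] at h1
  rw [← h1]
  have h3 : Integrable (fun x : Fin n → ℝ =>
      Crest.AlgGeometry.truncExpWeight (4 / 3 + ∑ i, a i * x i)) (PP n) := by
    have := (integrable_const (1 : ℝ)).sub h2
    refine this.congr (Eventually.of_forall fun x => ?_)
    simp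
  rw [integral_sub (integrable_const _) h3]
  simp

end Crest.Agent.H0280
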