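import Crest.Agent.H0280.Cross

set_option autoImplicit false

open MeasureTheory Set Filter Topology

namespace Crest.Agent.H0280

lemma integral_Ioi_shift (f : ℝ → ℝ) (r : ℝ) :
    ∫ t in Ioi 0, f (r + t) = ∫ t in Ioi r, f t := by
  have := (measurePreserving_add_left (volume : Measure ℝ) r).setIntegral_preimage_emb
    (measurableEmbedding_addLeft r) f (Ioi r)
  rw [← this]
  congr 1
  ext x; simp

lemma integrableOn_Ioi_shift {f : ℝ → ℝ} {r : ℝ} (h : IntegrableOn f (Ioi r)) :
    IntegrableOn (fun t => f (r + t)) (Ioi 0) := by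
  have := ((measurePreserving_add_left (volume : Measure ℝ) r).integrableOn_comp_preimage
    (measurableEmbedding_addLeft r) (f := f) (s := Ioi r)).2 h
  have e : (fun x => r + x) ⁻¹' Ioi r = Ioi 0 := by ext x; simp
  rw [e] at this
  exact this

lemma pf2_of_concave {ψ : ℝ → ℝ} (h : ConcaveOn ℝ univ ψ) {u v t : ℝ} (huv : u ≤ v) (ht : 0 ≤ t) :
    ψ u + ψ (v + t) ≤ ψ (u + t) + ψ v := by
  rcases eq_or_lt_of_le ht with rfl | ht
  · simp
  have hL : 0 < v + t - u := by linarith
  set θ := t / (v + t - u) with hθ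
  have h0 : 0 ≤ θ := by positivity
  have h1 : 0 ≤ 1 - θ := by
    rw [hθ, sub_nonneg, div_le_one hL]; linarith
  have hθ' : θ * (v + t - u) = t := by rw [hθ]; field_simp
  have a1 := h.2 (mem_univ u) (mem_univ (v + t)) h1 h0 (by ring)
  have a2 := h.2 (mem_univ u) (mem_univ (v + t)) h0 h1 (by ring)
  simp only [smul_eq_mul] at a1 a2
  have e1 : (1 - θ) * u + θ * (v + t) = u + t := by linarith
  have e2 : θ * u + (1 - θ) * (v + t) = v := by linarith
  rw [e1] at a1
  rw [e2] at a2
  linarith

/-- The tail integral of a positive log-concave function is positive and log-concave. -/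
lemma tail_logconcave {f : ℝ → ℝ} (hpos : ∀ t, 0 < f t)
    (hconc : ConcaveOn ℝ univ (fun t => Real.log (f t))) (hint : ∀ r, IntegrableOn f (Ioi r)) :
    (∀ r, 0 < ∫ t in Ioi r, f t) ∧ ConcaveOn ℝ univ (fun r => Real.log (∫ t in Ioi r, f t)) := by
  have hcont : Continuous f := continuous_G hpos hconc
  have hF : ∀ r, 0 < ∫ t in Ioi r, f t := by
    intro r
    rw [setIntegral_pos_iff_support_of_nonneg_ae (Eventually.of_forall fun t => (hpos t).le) (hint r)]
    have : Function.support f = univ := by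
      ext t; simp [(hpos t).ne']
    rw [this]; simp
  refine ⟨hF, ?_⟩
  have hder : ∀ r, HasDerivAt (fun r => ∫ t in Ioi r, f t) (-f r) r := by
    intro r
    have e : (fun r => ∫ t in Ioi r, f t) = fun r => (∫ t in Ioi 0, f t) - ∫ t in (0 : ℝ)..r, f t := by
      funext r
      rw [← intervalIntegral.integral_Ioi_sub_Ioi' (hint 0) (hint r)]; ring
    rw [e]
    exact (hcont.integral_hasStrictDerivAt 0 r).hasDerivAt.const_sub _
  have hder2 : ∀ r, HasDerivAt (fun r => Real.log (∫ t in Ioi r, f t))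
      (-f r / ∫ t in Ioi r, f t) r := fun r => (hder r).log (hF r).ne'
  refine Antitone.concaveOn_univ_of_deriv (fun r => (hder2 r).differentiableAt) ?_
  intro u v huv
  rw [(hder2 u).deriv, (hder2 v).deriv, div_le_div_iff₀ (hF v) (hF u)]
  have : f u * ∫ t in Ioi v, f t ≤ f v * ∫ t in Ioi u, f t := by
    rw [← integral_Ioi_shift f v, ← integral_Ioi_shift f u, ← integral_const_mul,
      ← integral_const_mul]
    refine setIntegral_mono_on ((integrableOn_Ioi_shift (hint v)).const_mul _)
      ((integrableOn_Ioi_shift (hint u)).const_mul _) measurableSet_Ioi (fun t ht => ?_)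
    have h1 := pf2_of_concave hconc huv (le_of_lt ht)
    rw [← Real.log_mul (hpos _).ne' (hpos _).ne', ← Real.log_mul (hpos _).ne' (hpos _).ne',
      Real.log_le_log_iff (mul_pos (hpos _) (hpos _)) (mul_pos (hpos _) (hpos _))] at h1
    linarith
  linarith

lemma concave_comp_affine {ψ : ℝ → ℝ} (h : ConcaveOn ℝ univ ψ) (α β : ℝ) :
    ConcaveOn ℝ univ (fun s => ψ (α * s) + β * s) := by
  refine ⟨convex_univ, fun x _ y _ a b ha hb hab => ?_⟩
  have := h.2 (mem_univ (α * x)) (mem_univ (α * y)) ha hb hab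
  simp only [smul_eq_mul] at this ⊢
  have e : α * (a * x + b * y) = a * (α * x) + b * (α * y) := by ring
  rw [e]; linarith

lemma step_logconcave {G : ℝ → ℝ} (hpos : ∀ t, 0 < G t) (hle : ∀ t, G t ≤ 1)
    (hconc : ConcaveOn ℝ univ (fun t => Real.log (G t))) (c : ℝ) :
    (∀ s, 0 < ∫ t in Ioi 0, G (s - c * t) * Real.exp (-t)) ∧
      ConcaveOn ℝ univ (fun s => Real.log (∫ t in Ioi 0, G (s - c * t) * Real.exp (-t))) := by
  rcases eq_or_ne c 0 with rfl | hc
  · simp only [zero_mul, sub_zero, integral_const_mul, integral_exp_neg_Ioi_zero, mul_one]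
    exact ⟨hpos, hconc⟩
  have hGc : Continuous G := continuous_G hpos hconc
  set f : ℝ → ℝ := fun t => G (-c * t) * Real.exp (-t) with hf
  have fpos : ∀ t, 0 < f t := fun t => mul_pos (hpos _) (Real.exp_pos _)
  have fconc : ConcaveOn ℝ univ (fun t => Real.log (f t)) := by
    have := concave_comp_affine hconc (-c) (-1)
    convert this using 2 with t
    rw [hf]
    simp only
    rw [Real.log_mul (hpos _).ne' (Real.exp_pos _).ne', Real.log_exp]; ring
  have fint : ∀ r, IntegrableOn f (Ioi r) := by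
    intro r
    have h := integrableOn_exp_mul_Ioi (a := -1) (by norm_num) r
    refine Integrable.mono' h (by rw [hf]; fun_prop) (Eventually.of_forall fun t => ?_)
    rw [Real.norm_eq_abs, abs_of_pos (fpos t), hf]
    simp only [neg_mul, one_mul]
    have := Real.exp_pos (-t)
    nlinarith [hle (-(c * t))]
  obtain ⟨Fpos, Fconc⟩ := tail_logconcave fpos fconc fint
  have key : ∀ s, ∫ t in Ioi 0, G (s - c * t) * Real.exp (-t) =
      (∫ t in Ioi (-c⁻¹ * s), f t) * Real.exp (-c⁻¹ * s) := by
    intro s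
    rw [← integral_Ioi_shift f, ← integral_mul_const]
    refine setIntegral_congr_fun measurableSet_Ioi (fun t _ => ?_)
    simp only [hf]
    have e1 : -c * (-c⁻¹ * s + t) = s - c * t := by field_simp; ring
    rw [e1, mul_assoc, ← Real.exp_add]
    congr 2; ring
  simp_rw [key]
  refine ⟨fun s => mul_pos (Fpos _) (Real.exp_pos _), ?_⟩
  have := concave_comp_affine Fconc (-c⁻¹) (-c⁻¹)
  convert this using 2 with s
  rw [Real.log_mul (Fpos _).ne' (Real.exp_pos _).ne', Real.log_exp]

end Crest.Agent.H0280
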